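import Mathlib

/-!
# P300 / H366: the exponential chart of a punctured bidisc

`LH` = left half plane, `PD` = punctured open unit disc, `ex : LH → PD` = exp,
`tr` = translation by `2πi k`, `sc` = scaling by a positive natural number, `pw` = n-th power.
-/

open Complex Topology

namespace Vale.Agent.P300.H366

/-- The open left half plane. -/
abbrev LH : Type := {z : ℂ // z.re < 0}

/-- The punctured open unit disc. -/
abbrev PD : Type := {z : ℂ // z ≠ 0 ∧ ‖z‖ < 1}

/-- The exponential map `LH → PD`. -/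
noncomputable def ex (z : LH) : PD :=
  ⟨Complex.exp z.1, Complex.exp_ne_zero _, by
    rw [Complex.norm_exp]; exact Real.exp_lt_one_iff.2 z.2⟩

@[simp] theorem ex_val (z : LH) : (ex z).1 = Complex.exp z.1 := rfl

/-- Translation by `2 π i k`. -/
noncomputable def tr (z : LH) (k : ℤ) : LH :=
  ⟨z.1 + k * (2 * Real.pi * I), by
    have : ((k : ℂ) * (2 * Real.pi * I)).re = 0 := by simp
    rw [Complex.add_re, this, add_zero]; exact z.2⟩

@[simp] theorem tr_val (z : LH) (k : ℤ) : (tr z k).1 = z.1 + k * (2 * Real.pi * I) := rfl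

/-- Scaling by a positive natural number. -/
noncomputable def sc (n : ℕ) (hn : 0 < n) (z : LH) : LH :=
  ⟨n * z.1, by
    have : ((n : ℂ) * z.1).re = n * z.1.re := by simp
    rw [this]
    exact mul_neg_of_pos_of_neg (by exact_mod_cast hn) z.2⟩

@[simp] theorem sc_val (n : ℕ) (hn : 0 < n) (z : LH) : (sc n hn z).1 = n * z.1 := rfl

/-- Power map on the punctured disc. -/
def pw (n : ℕ) (hn : 0 < n) (u : PD) : PD :=
  ⟨u.1 ^ n, pow_ne_zero _ u.2.1, by
    rw [norm_pow]; exact pow_lt_one₀ (norm_nonneg _) u.2.2 hn.ne'⟩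

@[simp] theorem pw_val (n : ℕ) (hn : 0 < n) (u : PD) : (pw n hn u).1 = u.1 ^ n := rfl

theorem continuous_ex : Continuous ex := by
  unfold ex
  exact Continuous.subtype_mk (Complex.continuous_exp.comp continuous_subtype_val) _

theorem continuous_tr (k : ℤ) : Continuous fun z => tr z k := by
  unfold tr
  exact Continuous.subtype_mk (continuous_subtype_val.add continuous_const) _

theorem continuous_sc (n : ℕ) (hn : 0 < n) : Continuous (sc n hn) := by
  unfold sc
  exact Continuous.subtype_mk (continuous_const.mul continuous_subtype_val) _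

theorem continuous_pw (n : ℕ) (hn : 0 < n) : Continuous (pw n hn) := by
  unfold pw
  exact Continuous.subtype_mk (continuous_subtype_val.pow n) _

theorem ex_tr (z : LH) (k : ℤ) : ex (tr z k) = ex z := by
  apply Subtype.ext
  rw [ex_val, ex_val, tr_val, Complex.exp_add, Complex.exp_int_mul_two_pi_mul_I, mul_one]

theorem tr_tr (z : LH) (k l : ℤ) : tr (tr z k) l = tr z (k + l) := by
  apply Subtype.ext
  rw [tr_val, tr_val, tr_val]; push_cast; ring

@[simp] theorem tr_zero (z : LH) : tr z 0 = z := by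
  apply Subtype.ext
  rw [tr_val]; simp

theorem ex_sc (n : ℕ) (hn : 0 < n) (z : LH) : ex (sc n hn z) = pw n hn (ex z) := by
  apply Subtype.ext
  rw [ex_val, pw_val, ex_val, sc_val, Complex.exp_nat_mul]

theorem sc_tr (n : ℕ) (hn : 0 < n) (z : LH) (k : ℤ) :
    sc n hn (tr z k) = tr (sc n hn z) (n * k) := by
  apply Subtype.ext
  rw [sc_val, tr_val, tr_val, sc_val]; push_cast; ring

theorem ex_eq_iff {z w : LH} : ex z = ex w ↔ ∃ k : ℤ, z = tr w k := by
  constructor
  · intro h
    have h' : Complex.exp z.1 = Complex.exp w.1 := congrArg Subtype.val h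
    obtain ⟨k, hk⟩ := Complex.exp_eq_exp_iff_exists_int.1 h'
    exact ⟨k, Subtype.ext (by rw [tr_val, hk])⟩
  · rintro ⟨k, rfl⟩
    exact ex_tr w k

theorem ex_surj : Function.Surjective ex := by
  rintro ⟨u, hu0, hu1⟩
  refine ⟨⟨Complex.log u, ?_⟩, ?_⟩
  · rw [Complex.log_re]
    exact Real.log_neg (norm_pos_iff.2 hu0) hu1
  · exact Subtype.ext (Complex.exp_log hu0)

theorem isOpenMap_ex : IsOpenMap ex := by
  intro O hO
  have hO' : IsOpen ((Subtype.val : LH → ℂ) '' O) :=
    (isOpen_lt Complex.continuous_re continuous_const).isOpenEmbedding_subtypeVal.isOpenMap O hO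
  have h1 := Complex.isOpenMap_exp _ hO'
  have : ex '' O = (Subtype.val : PD → ℂ) ⁻¹' (Complex.exp '' ((Subtype.val : LH → ℂ) '' O)) := by
    ext u
    constructor
    · rintro ⟨z, hz, rfl⟩
      exact ⟨z.1, ⟨z, hz, rfl⟩, rfl⟩
    · rintro ⟨_, ⟨z, hz, rfl⟩, hu⟩
      exact ⟨z, hz, Subtype.ext hu⟩
  rw [this]
  exact h1.preimage continuous_subtype_val

theorem isOpenMap_sc (n : ℕ) (hn : 0 < n) : IsOpenMap (sc n hn) := by
  intro O hO
  have hU : IsOpen {z : ℂ | z.re < 0} := isOpen_lt Complex.continuous_re continuous_const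
  have hO' : IsOpen ((Subtype.val : LH → ℂ) '' O) :=
    hU.isOpenEmbedding_subtypeVal.isOpenMap O hO
  have hn0 : (n : ℂ) ≠ 0 := by exact_mod_cast hn.ne'
  have h1 : IsOpen ((fun z : ℂ => (n : ℂ) * z) '' ((Subtype.val : LH → ℂ) '' O)) :=
    (Homeomorph.mulLeft₀ (n : ℂ) hn0).isOpenMap _ hO'
  have : sc n hn '' O = (Subtype.val : LH → ℂ) ⁻¹'
      ((fun z : ℂ => (n : ℂ) * z) '' ((Subtype.val : LH → ℂ) '' O)) := by
    ext u
    constructor
    · rintro ⟨z, hz, rfl⟩
      exact ⟨z.1, ⟨z, hz, rfl⟩, rfl⟩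
    · rintro ⟨_, ⟨z, hz, rfl⟩, hu⟩
      exact ⟨z, hz, Subtype.ext hu⟩
  rw [this]
  exact h1.preimage continuous_subtype_val

theorem isOpenMap_pw (n : ℕ) (hn : 0 < n) : IsOpenMap (pw n hn) := by
  intro O hO
  have h1 : IsOpen (ex '' (sc n hn '' (ex ⁻¹' O))) :=
    isOpenMap_ex _ (isOpenMap_sc n hn _ (hO.preimage continuous_ex))
  have : pw n hn '' O = ex '' (sc n hn '' (ex ⁻¹' O)) := by
    ext u
    constructor
    · rintro ⟨v, hv, rfl⟩
      obtain ⟨z, rfl⟩ := ex_surj v
      exact ⟨sc n hn z, ⟨z, hv, rfl⟩, ex_sc n hn z⟩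
    · rintro ⟨_, ⟨z, hz, rfl⟩, rfl⟩
      exact ⟨ex z, hz, (ex_sc n hn z).symm⟩
  rw [this]
  exact h1

/-- `ex × ex`. -/
noncomputable def ex2 (q : LH × LH) : PD × PD := (ex q.1, ex q.2)

theorem continuous_ex2 : Continuous ex2 :=
  (continuous_ex.comp continuous_fst).prodMk (continuous_ex.comp continuous_snd)

theorem isOpenQuotientMap_ex : IsOpenQuotientMap ex := ⟨ex_surj, continuous_ex, isOpenMap_ex⟩

theorem isOpenQuotientMap_ex2 : IsOpenQuotientMap ex2 :=
  isOpenQuotientMap_ex.prodMap isOpenQuotientMap_ex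

/-! ### connectivity of the half plane -/

theorem convex_LH : Convex ℝ {z : ℂ | z.re < 0} := convex_halfSpace_re_lt 0

instance : Nonempty LH := ⟨⟨-1, by norm_num⟩⟩

instance : ContractibleSpace LH :=
  convex_LH.contractibleSpace ⟨-1, by norm_num⟩

instance : LocallyPathConnectedSpace LH := convex_LH.locallyPathConnectedSpace

instance : SimplyConnectedSpace (LH × LH) := inferInstance

instance : LocallyPathConnectedSpace (LH × LH) := inferInstance

instance : PreconnectedSpace (LH × LH) := inferInstance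

end Vale.Agent.P300.H366
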