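import Vale.Agent.P300.H366.Base

/-!
# P300 / H366: families of lifts over a punctured bidisc and their branched models

`Fam p κ S`: a continuous family of lifts `L ζ ω s` of `κ (e^ζ, e^ω)`, bijective onto the fibres,
with commuting monodromies `a`, `b`.

If the stabiliser of `s` is `i ℤ × j ℤ`, then `F.pc` (the piece) is
`h (e^ζ, e^ω) = L (i ζ) (j ω) s`: an injective open continuous map `PD × PD → Z` with
`p (h (u, v)) = κ (u ^ i, v ^ j)`.
-/

open Complex Topology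

namespace Vale.Agent.P300.H366

/-- A continuous family of lifts over the exponential chart of a punctured bidisc. -/
structure Fam {Z W : Type*} [TopologicalSpace Z] (p : Z → W) (κ : PD × PD → W)
    (S : Type*) where
  /-- the lifts -/
  L : LH → LH → S → Z
  /-- monodromy of the first loop -/
  a : Equiv.Perm S
  /-- monodromy of the second loop -/
  b : Equiv.Perm S
  cont : ∀ s, Continuous fun q : LH × LH => L q.1 q.2 s
  lift : ∀ ζ ω s, p (L ζ ω s) = κ (ex ζ, ex ω)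
  inj : ∀ ζ ω, Function.Injective (L ζ ω)
  surj : ∀ ζ ω x, p x = κ (ex ζ, ex ω) → ∃ s, L ζ ω s = x
  per_a : ∀ ζ ω s, L (tr ζ 1) ω s = L ζ ω (a s)
  per_b : ∀ ζ ω s, L ζ (tr ω 1) s = L ζ ω (b s)

namespace Fam

variable {Z W S : Type*} [TopologicalSpace Z] {p : Z → W} {κ : PD × PD → W}
  (F : Fam p κ S)

theorem per_a' (m : ℤ) (ζ ω : LH) (s : S) : F.L (tr ζ m) ω s = F.L ζ ω ((F.a ^ m) s) := by
  have key : ∀ (n : ℕ) (ζ : LH) (s : S), F.L (tr ζ n) ω s = F.L ζ ω ((F.a ^ (n : ℤ)) s) := by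
    intro n
    induction n with
    | zero => intro ζ s; simp
    | succ n ih =>
      intro ζ s
      have h1 : tr ζ ((n + 1 : ℕ) : ℤ) = tr (tr ζ n) 1 := by
        rw [tr_tr]; push_cast; rfl
      rw [h1, F.per_a, ih, ← Equiv.Perm.mul_apply, ← zpow_add_one]
      push_cast; rfl
  obtain ⟨n, rfl | rfl⟩ := m.eq_nat_or_neg
  · exact key n ζ s
  · have h := key n (tr ζ (-n)) ((F.a ^ (-(n : ℤ))) s)
    rw [tr_tr, neg_add_cancel, tr_zero, ← Equiv.Perm.mul_apply, ← zpow_add, add_neg_cancel,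
      zpow_zero, Equiv.Perm.one_apply] at h
    exact h.symm

theorem per_b' (n : ℤ) (ζ ω : LH) (s : S) : F.L ζ (tr ω n) s = F.L ζ ω ((F.b ^ n) s) := by
  have key : ∀ (n : ℕ) (ω : LH) (s : S), F.L ζ (tr ω n) s = F.L ζ ω ((F.b ^ (n : ℤ)) s) := by
    intro n
    induction n with
    | zero => intro ω s; simp
    | succ n ih =>
      intro ω s
      have h1 : tr ω ((n + 1 : ℕ) : ℤ) = tr (tr ω n) 1 := by
        rw [tr_tr]; push_cast; rfl
      rw [h1, F.per_b, ih, ← Equiv.Perm.mul_apply, ← zpow_add_one]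
      push_cast; rfl
  obtain ⟨k, rfl | rfl⟩ := n.eq_nat_or_neg
  · exact key k ω s
  · have h := key k (tr ω (-k)) ((F.b ^ (-(k : ℤ))) s)
    rw [tr_tr, neg_add_cancel, tr_zero, ← Equiv.Perm.mul_apply, ← zpow_add, add_neg_cancel,
      zpow_zero, Equiv.Perm.one_apply] at h
    exact h.symm

theorem per (m n : ℤ) (ζ ω : LH) (s : S) :
    F.L (tr ζ m) (tr ω n) s = F.L ζ ω ((F.a ^ m) ((F.b ^ n) s)) := by
  rw [F.per_b', F.per_a']

theorem comm : Commute F.a F.b := by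
  ext s
  have ζ : LH := Classical.arbitrary _
  have h1 := F.per 1 1 ζ ζ s
  have h2 : F.L (tr ζ 1) (tr ζ 1) s = F.L ζ ζ (F.b (F.a s)) := by
    rw [F.per_a, F.per_b]
  rw [zpow_one, zpow_one] at h1
  rw [Equiv.Perm.mul_apply, Equiv.Perm.mul_apply]
  exact F.inj ζ ζ (h1.symm.trans h2)

/-- action of `ℤ × ℤ` on the labels -/
def act (m n : ℤ) (s : S) : S := (F.a ^ m) ((F.b ^ n) s)

theorem act_zero (s : S) : F.act 0 0 s = s := by simp [act]

theorem act_act (m n m' n' : ℤ) (s : S) :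
    F.act m n (F.act m' n' s) = F.act (m + m') (n + n') s := by
  unfold act
  have hc : Commute (F.b ^ n) (F.a ^ m') := (F.comm.symm.zpow_zpow n m')
  have h1 : (F.b ^ n) ((F.a ^ m') ((F.b ^ n') s)) = (F.a ^ m') ((F.b ^ n) ((F.b ^ n') s)) := by
    have := congrArg (fun g : Equiv.Perm S => g ((F.b ^ n') s)) hc.eq
    simpa [Equiv.Perm.mul_apply] using this
  rw [h1, zpow_add, zpow_add, Equiv.Perm.mul_apply, Equiv.Perm.mul_apply]

theorem per_act (m n : ℤ) (ζ ω : LH) (s : S) :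
    F.L (tr ζ m) (tr ω n) s = F.L ζ ω (F.act m n s) := F.per m n ζ ω s

/-- The stabiliser of `s` is `i ℤ × j ℤ`. -/
def Stab (s : S) (i j : ℕ) : Prop :=
  ∀ m n : ℤ, F.act m n s = s ↔ ((i : ℤ) ∣ m ∧ (j : ℤ) ∣ n)

theorem Stab.act {F : Fam p κ S} {s : S} {i j : ℕ} (h : F.Stab s i j) (m n : ℤ) :
    F.Stab (F.act m n s) i j := by
  intro m' n'
  rw [← h m' n', act_act]
  constructor
  · intro h'
    have := congrArg (F.act (-m) (-n)) h'
    rw [act_act, act_act] at this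
    have e1 : -m + (m' + m) = m' := by ring
    have e2 : -n + (n' + n) = n' := by ring
    rw [e1, e2, neg_add_cancel, neg_add_cancel, act_zero] at this
    exact this
  · intro h'
    rw [add_comm m' m, add_comm n' n, ← act_act, h']

/-- existence of exponents from finiteness + product shape -/
theorem Stab.of_mul {F : Fam p κ S} {s : S} {i j : ℕ}
    (hi : ∀ m : ℤ, (F.a ^ m) s = s ↔ (i : ℤ) ∣ m)
    (hj : ∀ n : ℤ, (F.b ^ n) s = s ↔ (j : ℤ) ∣ n)
    (hp : ∀ m n : ℤ, F.act m n s = s → (F.a ^ m) s = s) : F.Stab s i j := by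
  intro m n
  constructor
  · intro h
    have h1 := hp m n h
    refine ⟨(hi m).1 h1, (hj n).1 ?_⟩
    have e : F.act m n s = F.act 0 n (F.act m 0 s) := by rw [act_act]; simp
    rw [e] at h
    have e2 : F.act m 0 s = s := by
      unfold Fam.act; rw [zpow_zero, Equiv.Perm.one_apply]; exact h1
    rw [e2] at h
    unfold Fam.act at h
    rwa [zpow_zero, Equiv.Perm.one_apply] at h
  · rintro ⟨h1, h2⟩
    have a1 := (hi m).2 h1
    have a2 := (hj n).2 h2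
    unfold Fam.act
    rw [a2, a1]

/-- a logarithm -/
noncomputable def lg (u : PD) : LH := (ex_surj u).choose

@[simp] theorem ex_lg (u : PD) : ex (lg u) = u := (ex_surj u).choose_spec

/-- The piece through `s` with exponents `i`, `j`. -/
noncomputable def pc {i j : ℕ} (hi : 0 < i) (hj : 0 < j) (s : S) (q : PD × PD) : Z :=
  F.L (sc i hi (lg q.1)) (sc j hj (lg q.2)) s

variable {F} in
theorem Stab.pc_ex {i j : ℕ} (hi : 0 < i) (hj : 0 < j) {s : S} (h : F.Stab s i j) (ζ ω : LH) :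
    F.pc hi hj s (ex ζ, ex ω) = F.L (sc i hi ζ) (sc j hj ω) s := by
  unfold pc
  obtain ⟨k, hk⟩ := ex_eq_iff.1 (ex_lg (ex ζ))
  obtain ⟨l, hl⟩ := ex_eq_iff.1 (ex_lg (ex ω))
  simp only
  rw [hk, hl, sc_tr, sc_tr, F.per_act]
  congr 1
  exact (h _ _).2 ⟨dvd_mul_right _ _, dvd_mul_right _ _⟩

theorem p_pc {i j : ℕ} (hi : 0 < i) (hj : 0 < j) (s : S) (q : PD × PD) :
    p (F.pc hi hj s q) = κ (pw i hi q.1, pw j hj q.2) := by
  unfold pc
  rw [F.lift, ex_sc, ex_sc, ex_lg, ex_lg]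

variable {F} in
theorem Stab.continuous_pc {i j : ℕ} (hi : 0 < i) (hj : 0 < j) {s : S} (h : F.Stab s i j) :
    Continuous (F.pc hi hj s) := by
  rw [isOpenQuotientMap_ex2.isQuotientMap.continuous_iff]
  have : F.pc hi hj s ∘ ex2 = fun q : LH × LH => F.L (sc i hi q.1) (sc j hj q.2) s := by
    ext q
    exact h.pc_ex hi hj q.1 q.2
  rw [this]
  exact (F.cont s).comp (((continuous_sc i hi).comp continuous_fst).prodMk
    ((continuous_sc j hj).comp continuous_snd))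

variable {F} in
theorem Stab.injective_pc {i j : ℕ} (hi : 0 < i) (hj : 0 < j) {s : S} (h : F.Stab s i j)
    (hκ : Function.Injective κ) : Function.Injective (F.pc hi hj s) := by
  rintro ⟨u, v⟩ ⟨u', v'⟩ he
  obtain ⟨ζ, rfl⟩ := ex_surj u
  obtain ⟨ω, rfl⟩ := ex_surj v
  obtain ⟨ζ', rfl⟩ := ex_surj u'
  obtain ⟨ω', rfl⟩ := ex_surj v'
  have hp := congrArg p he
  rw [F.p_pc, F.p_pc] at hp
  have h1 := hκ hp
  have e1 : pw i hi (ex ζ) = pw i hi (ex ζ') := congrArg Prod.fst h1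
  have e2 : pw j hj (ex ω) = pw j hj (ex ω') := congrArg Prod.snd h1
  rw [← ex_sc, ← ex_sc] at e1 e2
  obtain ⟨m, hm⟩ := ex_eq_iff.1 e1
  obtain ⟨n, hn⟩ := ex_eq_iff.1 e2
  rw [h.pc_ex, h.pc_ex, hm, hn, F.per_act] at he
  obtain ⟨⟨m', rfl⟩, ⟨n', rfl⟩⟩ := (h m n).1 (F.inj _ _ he)
  rw [← sc_tr] at hm hn
  have inj_sc : ∀ (k : ℕ) (hk : 0 < k) (z w : LH), sc k hk z = sc k hk w → z = w := by
    intro k hk z w hzw
    have := congrArg Subtype.val hzw
    rw [sc_val, sc_val] at this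
    exact Subtype.ext (mul_left_cancel₀ (by exact_mod_cast hk.ne') this)
  have z1 := inj_sc _ _ _ _ hm
  have z2 := inj_sc _ _ _ _ hn
  rw [z1, z2, ex_tr, ex_tr]

variable {F} in
/-- the piece is an open map -/
theorem Stab.isOpenMap_pc [TopologicalSpace W] {i j : ℕ} (hi : 0 < i) (hj : 0 < j) {s : S}
    (h : F.Stab s i j) (hp : IsLocalHomeomorph p) (hκ : IsOpenMap κ) :
    IsOpenMap (F.pc hi hj s) := by
  have hc := h.continuous_pc hi hj
  have hcomp : IsOpenMap (p ∘ F.pc hi hj s) := by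
    have : p ∘ F.pc hi hj s = κ ∘ Prod.map (pw i hi) (pw j hj) := by
      ext q
      exact F.p_pc hi hj s q
    rw [this]
    exact hκ.comp ((isOpenMap_pw i hi).prodMap (isOpenMap_pw j hj))
  intro O hO
  rw [isOpen_iff_forall_mem_open]
  rintro _ ⟨x, hx, rfl⟩
  obtain ⟨e, he, hpe⟩ := hp (F.pc hi hj s x)
  -- e : OpenPartialHomeomorph with source ∋ h x, e = p
  set O' := O ∩ (F.pc hi hj s) ⁻¹' e.source with hO'
  have hO'o : IsOpen O' := hO.inter (e.open_source.preimage hc)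
  have h2 : IsOpen ((p ∘ F.pc hi hj s) '' O') := hcomp O' hO'o
  have h3 : IsOpen (e.source ∩ p ⁻¹' ((p ∘ F.pc hi hj s) '' O')) :=
    e.open_source.inter (h2.preimage hp.continuous)
  refine ⟨_, ?_, h3, ⟨he, ⟨x, ⟨hx, he⟩, rfl⟩⟩⟩
  rintro y ⟨hy, ⟨x', ⟨hx'O, hx'⟩, hpx'⟩⟩
  refine ⟨x', hx'O, ?_⟩
  have hpx'' : p (F.pc hi hj s x') = p y := hpx'
  have e1 : p (F.pc hi hj s x') = e (F.pc hi hj s x') := congrFun hpe _
  have e2 : p y = e y := congrFun hpe _
  exact e.injOn hx' hy (e1.symm.trans (hpx''.trans e2))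

variable {F} in
theorem Stab.isOpenEmbedding_pc [TopologicalSpace W] {i j : ℕ} (hi : 0 < i) (hj : 0 < j) {s : S}
    (h : F.Stab s i j) (hp : IsLocalHomeomorph p) (hκ : IsOpenEmbedding κ) :
    IsOpenEmbedding (F.pc hi hj s) :=
  .of_continuous_injective_isOpenMap (h.continuous_pc hi hj) (h.injective_pc hi hj hκ.injective)
    (h.isOpenMap_pc hi hj hp hκ.isOpenMap)

/-- rotation of the punctured disc -/
def rt (ρ : ℂ) (hρ : ‖ρ‖ = 1) (u : PD) : PD :=
  ⟨ρ * u.1, mul_ne_zero (fun h => by rw [h, norm_zero] at hρ; exact zero_ne_one hρ) u.2.1, by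
    rw [norm_mul, hρ, one_mul]; exact u.2.2⟩

variable {F} in
/-- Pieces through two points of one orbit differ by a rotation. -/
theorem Stab.pc_act {i j : ℕ} (hi : 0 < i) (hj : 0 < j) {s : S} (h : F.Stab s i j) (m n : ℤ) :
    ∃ (ρ σ : ℂ) (hρ : ‖ρ‖ = 1) (hσ : ‖σ‖ = 1), ρ ^ i = 1 ∧ σ ^ j = 1 ∧ ∀ q : PD × PD,
      F.pc hi hj (F.act m n s) q = F.pc hi hj s (rt ρ hρ q.1, rt σ hσ q.2) := by
  have hi0 : (i : ℂ) ≠ 0 := by exact_mod_cast hi.ne'
  have hj0 : (j : ℂ) ≠ 0 := by exact_mod_cast hj.ne'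
  have hre : ∀ (m : ℤ) (k : ℕ), ((m : ℂ) * (2 * Real.pi * I) / k).re = 0 := by
    intro m k
    have : (m : ℂ) * (2 * Real.pi * I) / k = ((m * (2 * Real.pi) / k : ℝ) : ℂ) * I := by
      push_cast; ring
    rw [this]; simp
  have hnorm : ∀ (m : ℤ) (k : ℕ), ‖Complex.exp ((m : ℂ) * (2 * Real.pi * I) / k)‖ = 1 := by
    intro m k
    rw [Complex.norm_exp, hre, Real.exp_zero]
  have hpow : ∀ (m : ℤ) (k : ℕ), (k : ℂ) ≠ 0 →
      Complex.exp ((m : ℂ) * (2 * Real.pi * I) / k) ^ k = 1 := by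
    intro m k hk
    rw [← Complex.exp_nat_mul, mul_div_cancel₀ _ hk, Complex.exp_int_mul_two_pi_mul_I]
  refine ⟨_, _, hnorm m i, hnorm n j, hpow m i hi0, hpow n j hj0, ?_⟩
  rintro ⟨u, v⟩
  obtain ⟨ζ, rfl⟩ := ex_surj u
  obtain ⟨ω, rfl⟩ := ex_surj v
  have key : ∀ (m : ℤ) (k : ℕ) (hk : 0 < k) (z : LH), ∃ w : LH,
      sc k hk w = tr (sc k hk z) m ∧ ex w = rt _ (hnorm m k) (ex z) := by
    intro m k hk z
    have hk0 : (k : ℂ) ≠ 0 := by exact_mod_cast hk.ne'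
    refine ⟨⟨z.1 + (m : ℂ) * (2 * Real.pi * I) / k, ?_⟩, ?_, ?_⟩
    · rw [Complex.add_re, hre, add_zero]; exact z.2
    · apply Subtype.ext
      rw [sc_val, tr_val, sc_val, mul_add, mul_div_cancel₀ _ hk0]
    · apply Subtype.ext
      change Complex.exp (z.1 + (m : ℂ) * (2 * Real.pi * I) / k) =
        Complex.exp ((m : ℂ) * (2 * Real.pi * I) / k) * Complex.exp z.1
      rw [Complex.exp_add, mul_comm]
  obtain ⟨ζ', h1, h2⟩ := key m i hi ζ
  obtain ⟨ω', h3, h4⟩ := key n j hj ω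
  rw [(h.act m n).pc_ex hi hj, ← F.per_act]
  simp only
  rw [← h1, ← h3, ← h2, ← h4, h.pc_ex hi hj]

variable {F} in
/-- Two pieces meet only if their labels are in one orbit. -/
theorem Stab.orbit_of_pc_eq {i j i' j' : ℕ} (hi : 0 < i) (hj : 0 < j) (hi' : 0 < i')
    (hj' : 0 < j') {s t : S} (h : F.Stab s i j) (h' : F.Stab t i' j')
    (hκ : Function.Injective κ) {q q' : PD × PD}
    (he : F.pc hi hj s q = F.pc hi' hj' t q') : ∃ m n : ℤ, s = F.act m n t := by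
  obtain ⟨u, v⟩ := q
  obtain ⟨u', v'⟩ := q'
  obtain ⟨ζ, rfl⟩ := ex_surj u
  obtain ⟨ω, rfl⟩ := ex_surj v
  obtain ⟨ζ', rfl⟩ := ex_surj u'
  obtain ⟨ω', rfl⟩ := ex_surj v'
  have hp := congrArg p he
  rw [F.p_pc, F.p_pc] at hp
  have h1 := hκ hp
  have e1 : pw i hi (ex ζ) = pw i' hi' (ex ζ') := congrArg Prod.fst h1
  have e2 : pw j hj (ex ω) = pw j' hj' (ex ω') := congrArg Prod.snd h1
  rw [← ex_sc, ← ex_sc] at e1 e2
  obtain ⟨m, hm⟩ := ex_eq_iff.1 e1.symm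
  obtain ⟨n, hn⟩ := ex_eq_iff.1 e2.symm
  rw [h.pc_ex, h'.pc_ex, hm, hn, F.per_act] at he
  exact ⟨m, n, F.inj _ _ he⟩

/-- The pieces through all labels cover the preimage. -/
theorem exists_pc {x : Z} {q : PD × PD} (hx : p x = κ q) (i j : S → ℕ) (hi : ∀ s, 0 < i s)
    (hj : ∀ s, 0 < j s) (h : ∀ s, F.Stab s (i s) (j s)) :
    ∃ s q', F.pc (hi s) (hj s) s q' = x := by
  obtain ⟨u, v⟩ := q
  obtain ⟨ζ, rfl⟩ := ex_surj u
  obtain ⟨ω, rfl⟩ := ex_surj v
  obtain ⟨s, hs⟩ := F.surj ζ ω x hx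
  have dv : ∀ (k : ℕ) (hk : 0 < k) (z : LH), ∃ w : LH, sc k hk w = z := by
    intro k hk z
    have hk' : (0 : ℝ) < k := by exact_mod_cast hk
    refine ⟨⟨z.1 / k, ?_⟩, ?_⟩
    · have : (z.1 / k).re = z.1.re / k := by
        rw [show (k : ℂ) = ((k : ℝ) : ℂ) by push_cast; rfl, Complex.div_ofReal_re]
      rw [this]
      exact div_neg_of_neg_of_pos z.2 hk'
    · apply Subtype.ext
      rw [sc_val]
      exact mul_div_cancel₀ _ (by exact_mod_cast hk.ne')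
  obtain ⟨ζ', hζ'⟩ := dv (i s) (hi s) ζ
  obtain ⟨ω', hω'⟩ := dv (j s) (hj s) ω
  exact ⟨s, (ex ζ', ex ω'), by rw [(h s).pc_ex, hζ', hω', hs]⟩

end Fam

end Vale.Agent.P300.H366
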