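import Vale.Agent.P300.H366.Fam

/-!
# P300 / H366: existence of the family of lifts, its monodromy, naturality, homotopy transport
-/

open Complex Topology

namespace Vale.Agent.P300.H366

/-- real translation by `2 π i t`. -/
noncomputable def trr (z : LH) (t : ℝ) : LH :=
  ⟨z.1 + t * (2 * Real.pi * I), by
    have : ((t : ℂ) * (2 * Real.pi * I)).re = 0 := by simp
    rw [Complex.add_re, this, add_zero]; exact z.2⟩

@[simp] theorem trr_val (z : LH) (t : ℝ) : (trr z t).1 = z.1 + t * (2 * Real.pi * I) := rfl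

@[simp] theorem trr_zero (z : LH) : trr z 0 = z := by
  apply Subtype.ext; rw [trr_val]; simp

theorem trr_one (z : LH) : trr z 1 = tr z 1 := by
  apply Subtype.ext; rw [trr_val, tr_val]; simp

theorem continuous_trr (z : LH) : Continuous fun t : ℝ => trr z t := by
  unfold trr
  exact Continuous.subtype_mk (by fun_prop) _

section

variable {Z W S : Type*} [TopologicalSpace Z] [TopologicalSpace W] {p : Z → W}
  {κ : PD × PD → W}

/-- the lift of `κ ∘ ex2` through a point of the fibre. -/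
theorem exists_lift (hp : IsCoveringMap p) (hκ : Continuous κ) (q₀ : LH × LH) (x : Z)
    (hx : p x = κ (ex2 q₀)) :
    ∃ G : C(LH × LH, Z), G q₀ = x ∧ p ∘ G = κ ∘ ex2 := by
  obtain ⟨G, hG, -⟩ := hp.existsUnique_continuousMap_lifts
    ⟨κ ∘ ex2, hκ.comp continuous_ex2⟩ q₀ x hx
  exact ⟨G, hG⟩

theorem lift_unique (hp : IsCoveringMap p) {G G' : LH × LH → Z} (hG : Continuous G)
    (hG' : Continuous G') (h : p ∘ G = p ∘ G') (q : LH × LH) (hq : G q = G' q) : G = G' :=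
  hp.eq_of_comp_eq hG hG' h q hq

/-- The family of lifts of a covering over a punctured bidisc. -/
theorem exists_fam (hp : IsCoveringMap p) (hκ : Continuous κ) (ζ₀ ω₀ : LH)
    (e : S ≃ {x : Z // p x = κ (ex ζ₀, ex ω₀)}) :
    ∃ F : Fam p κ S, ∀ s, F.L ζ₀ ω₀ s = (e s).1 := by
  classical
  -- lifts through points of the base fibre
  have H : ∀ s : S, ∃ G : C(LH × LH, Z), G (ζ₀, ω₀) = (e s).1 ∧ p ∘ G = κ ∘ ex2 :=
    fun s => exists_lift hp hκ (ζ₀, ω₀) _ (e s).2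
  choose G hG0 hG using H
  have hGp : ∀ s q, p (G s q) = κ (ex2 q) := fun s q => congrFun (hG s) q
  -- uniqueness
  have huniq : ∀ (s : S) (G' : LH × LH → Z), Continuous G' → (∀ q, p (G' q) = κ (ex2 q)) →
      (∃ q, G' q = G s q) → ∀ q, G' q = G s q := by
    rintro s G' hc hl ⟨q₀, hq₀⟩ q
    exact congrFun (lift_unique hp hc (G s).continuous
      (by ext q; exact (hl q).trans (hGp s q).symm) q₀ hq₀) q
  -- translates
  have ptr : ∀ (m n : ℤ) (s : S), p (G s (tr ζ₀ m, tr ω₀ n)) = κ (ex ζ₀, ex ω₀) := by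
    intro m n s
    rw [hGp]
    change κ (ex (tr ζ₀ m), ex (tr ω₀ n)) = _
    rw [ex_tr, ex_tr]
  have mon : ∀ (m n : ℤ) (s : S), ∀ ζ ω : LH,
      G s (tr ζ m, tr ω n) = G (e.symm ⟨_, ptr m n s⟩) (ζ, ω) := by
    intro m n s ζ ω
    refine huniq (e.symm ⟨_, ptr m n s⟩) (fun q => G s (tr q.1 m, tr q.2 n)) ?_ ?_ ?_ (ζ, ω)
    · exact (G s).continuous.comp (((continuous_tr m).comp continuous_fst).prodMk
        ((continuous_tr n).comp continuous_snd))
    · intro q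
      rw [hGp]
      change κ (ex (tr q.1 m), ex (tr q.2 n)) = κ (ex q.1, ex q.2)
      rw [ex_tr, ex_tr]
    · refine ⟨(ζ₀, ω₀), ?_⟩
      rw [hG0, Equiv.apply_symm_apply]
  have inj0 : ∀ q : LH × LH, ∀ s t : S, G s q = G t q → s = t := by
    intro q s t h
    have := huniq t (G s) (G s).continuous (hGp s) ⟨q, h⟩ (ζ₀, ω₀)
    rw [hG0, hG0] at this
    exact e.injective (Subtype.ext this)
  have surj0 : ∀ q : LH × LH, ∀ x : Z, p x = κ (ex2 q) → ∃ s, G s q = x := by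
    intro q x hx
    obtain ⟨G', hG'q, hG'⟩ := exists_lift hp hκ q x hx
    have h0 : p (G' (ζ₀, ω₀)) = κ (ex ζ₀, ex ω₀) := congrFun hG' (ζ₀, ω₀)
    refine ⟨e.symm ⟨_, h0⟩, ?_⟩
    rw [← huniq (e.symm ⟨_, h0⟩) G' G'.continuous (fun q => congrFun hG' q)
      ⟨(ζ₀, ω₀), by rw [hG0, Equiv.apply_symm_apply]⟩ q]
    exact hG'q
  let μ : ℤ → ℤ → S → S := fun m n s => e.symm ⟨_, ptr m n s⟩
  have μμ : ∀ m n s, μ (-m) (-n) (μ m n s) = s := by
    intro m n s
    apply inj0 (ζ₀, ω₀)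
    have h1 := mon (-m) (-n) (μ m n s) ζ₀ ω₀
    have h2 := mon m n s (tr ζ₀ (-m)) (tr ω₀ (-n))
    rw [tr_tr, tr_tr, neg_add_cancel, neg_add_cancel, tr_zero, tr_zero] at h2
    exact (h2.trans h1).symm
  refine ⟨
    { L := fun ζ ω s => G s (ζ, ω)
      a := ⟨μ 1 0, μ (-1) 0, fun s => by simpa using μμ 1 0 s, fun s => by simpa using μμ (-1) 0 s⟩
      b := ⟨μ 0 1, μ 0 (-1), fun s => by simpa using μμ 0 1 s, fun s => by simpa using μμ 0 (-1) s⟩
      cont := fun s => (G s).continuous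
      lift := fun ζ ω s => hGp s (ζ, ω)
      inj := fun ζ ω s t h => inj0 (ζ, ω) s t h
      surj := fun ζ ω x hx => surj0 (ζ, ω) x hx
      per_a := fun ζ ω s => by
        have := mon 1 0 s ζ ω
        rw [tr_zero] at this
        exact this
      per_b := fun ζ ω s => by
        have := mon 0 1 s ζ ω
        rw [tr_zero] at this
        exact this }, fun s => hG0 s⟩

/-- The family of lifts with a prescribed identification of the base fibre. -/
noncomputable def Fam.ofCov (hp : IsCoveringMap p) (hκ : Continuous κ) (ζ₀ ω₀ : LH)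
    (e : S ≃ {x : Z // p x = κ (ex ζ₀, ex ω₀)}) : Fam p κ S :=
  (exists_fam hp hκ ζ₀ ω₀ e).choose

theorem Fam.ofCov_base (hp : IsCoveringMap p) (hκ : Continuous κ) (ζ₀ ω₀ : LH)
    (e : S ≃ {x : Z // p x = κ (ex ζ₀, ex ω₀)}) (s : S) :
    (Fam.ofCov hp hκ ζ₀ ω₀ e).L ζ₀ ω₀ s = (e s).1 :=
  (exists_fam hp hκ ζ₀ ω₀ e).choose_spec s

/-- uniqueness of path lifts, real-interval form -/
theorem path_unique (hp : IsCoveringMap p) {γ γ' : ℝ → Z}
    (hγ : ContinuousOn γ (Set.Icc 0 1)) (hγ' : ContinuousOn γ' (Set.Icc 0 1))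
    (h : ∀ t ∈ Set.Icc (0 : ℝ) 1, p (γ t) = p (γ' t)) {t₀ : ℝ} (ht₀ : t₀ ∈ Set.Icc (0 : ℝ) 1)
    (h0 : γ t₀ = γ' t₀) : ∀ t ∈ Set.Icc (0 : ℝ) 1, γ t = γ' t := by
  have : PreconnectedSpace (Set.Icc (0 : ℝ) 1) :=
    isPreconnected_iff_preconnectedSpace.1 isPreconnected_Icc
  have h1 : Continuous fun t : Set.Icc (0 : ℝ) 1 => γ t.1 := hγ.domRestrict
  have h2 : Continuous fun t : Set.Icc (0 : ℝ) 1 => γ' t.1 := hγ'.domRestrict
  have h3 := hp.eq_of_comp_eq h1 h2 (by ext t; exact h t.1 t.2) ⟨t₀, ht₀⟩ h0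
  intro t ht
  exact congrFun h3 ⟨t, ht⟩

/-- The first monodromy is the end point of the lifted loop. -/
theorem Fam.a_eq (F : Fam p κ S) (hp : IsCoveringMap p) {ζ₀ ω₀ : LH} {γ : ℝ → Z}
    (hγ : ContinuousOn γ (Set.Icc 0 1))
    (hl : ∀ t ∈ Set.Icc (0 : ℝ) 1, p (γ t) = κ (ex (trr ζ₀ t), ex ω₀)) {s s' : S}
    (h0 : γ 0 = F.L ζ₀ ω₀ s) (h1 : γ 1 = F.L ζ₀ ω₀ s') : F.a s = s' := by
  have hc : Continuous fun t : ℝ => F.L (trr ζ₀ t) ω₀ s :=
    (F.cont s).comp ((continuous_trr ζ₀).prodMk continuous_const)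
  have := path_unique hp hγ hc.continuousOn
    (fun t ht => by rw [hl t ht, F.lift]) (t₀ := 0) ⟨le_rfl, zero_le_one⟩
    (by rw [h0, trr_zero]) 1 ⟨zero_le_one, le_rfl⟩
  rw [h1, trr_one, F.per_a] at this
  exact F.inj _ _ this.symm

/-- The second monodromy is the end point of the lifted loop. -/
theorem Fam.b_eq (F : Fam p κ S) (hp : IsCoveringMap p) {ζ₀ ω₀ : LH} {γ : ℝ → Z}
    (hγ : ContinuousOn γ (Set.Icc 0 1))
    (hl : ∀ t ∈ Set.Icc (0 : ℝ) 1, p (γ t) = κ (ex ζ₀, ex (trr ω₀ t))) {s s' : S}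
    (h0 : γ 0 = F.L ζ₀ ω₀ s) (h1 : γ 1 = F.L ζ₀ ω₀ s') : F.b s = s' := by
  have hc : Continuous fun t : ℝ => F.L ζ₀ (trr ω₀ t) s :=
    (F.cont s).comp (continuous_const.prodMk (continuous_trr ω₀))
  have := path_unique hp hγ hc.continuousOn
    (fun t ht => by rw [hl t ht, F.lift]) (t₀ := 0) ⟨le_rfl, zero_le_one⟩
    (by rw [h0, trr_zero]) 1 ⟨zero_le_one, le_rfl⟩
  rw [h1, trr_one, F.per_b] at this
  exact F.inj _ _ this.symm

/-- `MAIN` form for users: a covering, a base point, an identification of the base fibre with `S`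
and, for each `s`, lifts of the two loops give a family with the given monodromies. -/
theorem exists_fam_of_loops (hp : IsCoveringMap p) (hκ : Continuous κ) (ζ₀ ω₀ : LH)
    (e : S ≃ {x : Z // p x = κ (ex ζ₀, ex ω₀)}) (a b : Equiv.Perm S)
    (ha : ∀ s, ∃ γ : ℝ → Z, ContinuousOn γ (Set.Icc 0 1) ∧
      (∀ t ∈ Set.Icc (0 : ℝ) 1, p (γ t) = κ (ex (trr ζ₀ t), ex ω₀)) ∧
      γ 0 = (e s).1 ∧ γ 1 = (e (a s)).1)
    (hb : ∀ s, ∃ γ : ℝ → Z, ContinuousOn γ (Set.Icc 0 1) ∧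
      (∀ t ∈ Set.Icc (0 : ℝ) 1, p (γ t) = κ (ex ζ₀, ex (trr ω₀ t))) ∧
      γ 0 = (e s).1 ∧ γ 1 = (e (b s)).1) :
    ∃ F : Fam p κ S, F.a = a ∧ F.b = b ∧ ∀ s, F.L ζ₀ ω₀ s = (e s).1 := by
  obtain ⟨F, hF⟩ := exists_fam hp hκ ζ₀ ω₀ e
  refine ⟨F, ?_, ?_, hF⟩
  · ext s
    obtain ⟨γ, h1, h2, h3, h4⟩ := ha s
    exact F.a_eq hp h1 h2 (by rw [h3, hF]) (by rw [h4, hF])
  · ext s
    obtain ⟨γ, h1, h2, h3, h4⟩ := hb s
    exact F.b_eq hp h1 h2 (by rw [h3, hF]) (by rw [h4, hF])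

end

/-! ### naturality -/

section Nat

variable {Z Z' W S S' : Type*} [TopologicalSpace Z] [TopologicalSpace Z']
  {p : Z → W} {p' : Z' → W} {κ : PD × PD → W}

/-- `g` maps the family `F` to the family `F'` along `φ`. -/
def Fam.Nat (F : Fam p κ S) (F' : Fam p' κ S') (g : Z → Z') (φ : S → S') : Prop :=
  ∀ ζ ω s, g (F.L ζ ω s) = F'.L ζ ω (φ s)

theorem Fam.nat_of_base [TopologicalSpace W] (F : Fam p κ S) (F' : Fam p' κ S') {g : Z → Z'}
    (hg : Continuous g) (hpg : ∀ x, p' (g x) = p x) (hp' : IsCoveringMap p') {φ : S → S'}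
    {ζ₀ ω₀ : LH} (h : ∀ s, g (F.L ζ₀ ω₀ s) = F'.L ζ₀ ω₀ (φ s)) : F.Nat F' g φ := by
  intro ζ ω s
  have h1 := hp'.eq_of_comp_eq (hg.comp (F.cont s)) (F'.cont (φ s))
    (by ext q; change p' (g (F.L q.1 q.2 s)) = p' (F'.L q.1 q.2 (φ s));
        rw [hpg, F.lift, F'.lift]) (ζ₀, ω₀) (h s)
  exact congrFun h1 (ζ, ω)

theorem Fam.Nat.a {F : Fam p κ S} {F' : Fam p' κ S'} {g : Z → Z'} {φ : S → S'}
    (h : F.Nat F' g φ) (s : S) : φ (F.a s) = F'.a (φ s) := by
  have ζ : LH := Classical.arbitrary _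
  apply F'.inj ζ ζ
  rw [← F'.per_a, ← h, ← h, F.per_a]

theorem Fam.Nat.b {F : Fam p κ S} {F' : Fam p' κ S'} {g : Z → Z'} {φ : S → S'}
    (h : F.Nat F' g φ) (s : S) : φ (F.b s) = F'.b (φ s) := by
  have ζ : LH := Classical.arbitrary _
  apply F'.inj ζ ζ
  rw [← F'.per_b, ← h, ← h, F.per_b]

theorem Fam.Nat.act {F : Fam p κ S} {F' : Fam p' κ S'} {g : Z → Z'} {φ : S → S'}
    (h : F.Nat F' g φ) (m n : ℤ) (s : S) : φ (F.act m n s) = F'.act m n (φ s) := by
  have ζ : LH := Classical.arbitrary _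
  apply F'.inj ζ ζ
  rw [← F'.per_act, ← h, ← h, F.per_act]

theorem Fam.Nat.dvd {F : Fam p κ S} {F' : Fam p' κ S'} {g : Z → Z'} {φ : S → S'}
    (h : F.Nat F' g φ) {s : S} {i j i' j' : ℕ} (hs : F.Stab s i j)
    (hs' : F'.Stab (φ s) i' j') : i' ∣ i ∧ j' ∣ j := by
  have h1 := (hs i 0).2 ⟨dvd_rfl, dvd_zero _⟩
  have h2 := (hs 0 j).2 ⟨dvd_zero _, dvd_rfl⟩
  have h3 := congrArg φ h1
  have h4 := congrArg φ h2
  rw [h.act] at h3 h4
  exact ⟨Int.natCast_dvd_natCast.1 ((hs' _ _).1 h3).1,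
    Int.natCast_dvd_natCast.1 ((hs' _ _).1 h4).2⟩

/-- A map of coverings is `(u, v) ↦ (u ^ c, v ^ d)` on pieces, `i = i' c`, `j = j' d`. -/
theorem Fam.Nat.pc {F : Fam p κ S} {F' : Fam p' κ S'} {g : Z → Z'} {φ : S → S'}
    (h : F.Nat F' g φ) {s : S} {i j i' j' c d : ℕ} (hi : 0 < i) (hj : 0 < j) (hi' : 0 < i')
    (hj' : 0 < j') (hc : 0 < c) (hd : 0 < d) (ei : i = i' * c) (ej : j = j' * d)
    (hs : F.Stab s i j) (hs' : F'.Stab (φ s) i' j') (q : PD × PD) :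
    g (F.pc hi hj s q) = F'.pc hi' hj' (φ s) (pw c hc q.1, pw d hd q.2) := by
  obtain ⟨u, v⟩ := q
  obtain ⟨ζ, rfl⟩ := ex_surj u
  obtain ⟨ω, rfl⟩ := ex_surj v
  rw [hs.pc_ex, h, ← ex_sc, ← ex_sc, hs'.pc_ex]
  have e1 : sc i hi ζ = sc i' hi' (sc c hc ζ) := by
    apply Subtype.ext; rw [sc_val, sc_val, sc_val, ei]; push_cast; ring
  have e2 : sc j hj ω = sc j' hj' (sc d hd ω) := by
    apply Subtype.ext; rw [sc_val, sc_val, sc_val, ej]; push_cast; ring
  rw [e1, e2]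

/-- If the exponents agree, the map of coverings is the identity on pieces. -/
theorem Fam.Nat.pc_same {F : Fam p κ S} {F' : Fam p' κ S'} {g : Z → Z'} {φ : S → S'}
    (h : F.Nat F' g φ) {s : S} {i j : ℕ} (hi : 0 < i) (hj : 0 < j)
    (hs : F.Stab s i j) (hs' : F'.Stab (φ s) i j) (q : PD × PD) :
    g (F.pc hi hj s q) = F'.pc hi hj (φ s) q := by
  obtain ⟨u, v⟩ := q
  obtain ⟨ζ, rfl⟩ := ex_surj u
  obtain ⟨ω, rfl⟩ := ex_surj v
  rw [hs.pc_ex, h, hs'.pc_ex]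

end Nat

/-! ### change of chart -/

section Comp

variable {Z W S : Type*} [TopologicalSpace Z] {p : Z → W} {κ : PD × PD → W}

/-- Composition of the chart with a self map of the punctured bidisc covered by a self map of
`LH × LH` commuting with the deck translations. -/
def Fam.comp (F : Fam p κ S) (f g : LH → LH) (hf : Continuous f) (hg : Continuous g)
    (hf1 : ∀ z, f (tr z 1) = tr (f z) 1) (hg1 : ∀ z, g (tr z 1) = tr (g z) 1)
    (r r' : PD → PD) (hr : ∀ z, ex (f z) = r (ex z)) (hr' : ∀ z, ex (g z) = r' (ex z)) :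
    Fam p (fun q => κ (r q.1, r' q.2)) S where
  L ζ ω s := F.L (f ζ) (g ω) s
  a := F.a
  b := F.b
  cont s := (F.cont s).comp ((hf.comp continuous_fst).prodMk (hg.comp continuous_snd))
  lift ζ ω s := by rw [F.lift, hr, hr']
  inj ζ ω := F.inj _ _
  surj ζ ω x hx := F.surj _ _ x (by rw [hx, hr, hr'])
  per_a ζ ω s := by rw [hf1, F.per_a]
  per_b ζ ω s := by rw [hg1, F.per_b]

/-- change of the chart by equality -/
def Fam.congr (F : Fam p κ S) {κ' : PD × PD → W} (h : ∀ q, κ q = κ' q) : Fam p κ' S where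
  L := F.L
  a := F.a
  b := F.b
  cont := F.cont
  lift ζ ω s := by rw [F.lift, h]
  inj := F.inj
  surj ζ ω x hx := F.surj _ _ x (by rw [hx, h])
  per_a := F.per_a
  per_b := F.per_b

/-- exchange of the two coordinates -/
def Fam.swap (F : Fam p κ S) : Fam p (fun q => κ (q.2, q.1)) S where
  L ζ ω s := F.L ω ζ s
  a := F.b
  b := F.a
  cont s := (F.cont s).comp continuous_swap
  lift ζ ω s := F.lift ω ζ s
  inj ζ ω := F.inj ω ζ
  surj ζ ω x hx := F.surj ω ζ x hx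
  per_a ζ ω s := F.per_b ω ζ s
  per_b ζ ω s := F.per_a ω ζ s

end Comp

/-! ### transport along a homotopy of charts -/

section Transport

variable {Z W S : Type*} [TopologicalSpace Z] [TopologicalSpace W] {p : Z → W}
  {K : ℝ → PD × PD → W}

theorem exists_transport (hp : IsCoveringMap p)
    (hK : ContinuousOn (fun x : ℝ × (PD × PD) => K x.1 x.2) (Set.Icc 0 1 ×ˢ Set.univ))
    (F : Fam p (K 0) S) :
    ∃ F' : Fam p (K 1) S, F'.a = F.a ∧ F'.b = F.b ∧
      ∀ s ζ ω, ∃ γ : ℝ → Z, ContinuousOn γ (Set.Icc 0 1) ∧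
        (∀ t ∈ Set.Icc (0 : ℝ) 1, p (γ t) = K t (ex ζ, ex ω)) ∧
        γ 0 = F.L ζ ω s ∧ γ 1 = F'.L ζ ω s := by
  classical
  have h0I : (0 : ℝ) ∈ Set.Icc (0 : ℝ) 1 := ⟨le_rfl, zero_le_one⟩
  have h1I : (1 : ℝ) ∈ Set.Icc (0 : ℝ) 1 := ⟨zero_le_one, le_rfl⟩
  have hHc : Continuous fun x : unitInterval × (LH × LH) => K x.1.1 (ex2 x.2) := by
    have h1 : Continuous fun x : unitInterval × (LH × LH) => ((x.1.1, ex2 x.2) : ℝ × (PD × PD)) :=
      (continuous_subtype_val.comp continuous_fst).prodMk (continuous_ex2.comp continuous_snd)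
    exact hK.comp_continuous h1 fun x => ⟨x.1.2, trivial⟩
  let H : C(unitInterval × (LH × LH), W) := ⟨_, hHc⟩
  let f : S → C(LH × LH, Z) := fun s => ⟨_, F.cont s⟩
  have H0 : ∀ s q, H (0, q) = p (f s q) := fun s q => (F.lift q.1 q.2 s).symm
  let G : S → C(unitInterval × (LH × LH), Z) := fun s => hp.liftHomotopy H (f s) (H0 s)
  have hG : ∀ s x, p (G s x) = K x.1.1 (ex2 x.2) := fun s x =>
    congrFun (hp.liftHomotopy_lifts H (f s) (H0 s)) x
  have hG0 : ∀ s q, G s (0, q) = F.L q.1 q.2 s := fun s q =>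
    hp.liftHomotopy_zero H (f s) (H0 s) q
  -- paths
  let P : S → LH × LH → ℝ → Z := fun s q t => G s (Set.projIcc 0 1 zero_le_one t, q)
  have hPc : ∀ s q, Continuous (P s q) := fun s q =>
    (G s).continuous.comp (continuous_projIcc.prodMk continuous_const)
  have hPl : ∀ s q, ∀ t ∈ Set.Icc (0 : ℝ) 1, p (P s q t) = K t (ex2 q) := by
    intro s q t ht
    change p (G s (Set.projIcc 0 1 zero_le_one t, q)) = _
    rw [hG, Set.projIcc_of_mem _ ht]
  have hP0 : ∀ s q, P s q 0 = F.L q.1 q.2 s := by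
    intro s q
    change G s (Set.projIcc 0 1 zero_le_one 0, q) = _
    rw [Set.projIcc_left]; exact hG0 s q
  have hP1 : ∀ s q, P s q 1 = G s (1, q) := by
    intro s q
    change G s (Set.projIcc 0 1 zero_le_one 1, q) = _
    rw [Set.projIcc_right]; rfl
  have hm : ∀ (m n : ℤ) (s : S) (ζ ω : LH),
      P s (tr ζ m, tr ω n) 1 = P (F.act m n s) (ζ, ω) 1 := by
    intro m n s ζ ω
    refine path_unique hp (hPc _ _).continuousOn (hPc _ _).continuousOn ?_ h0I ?_ 1 h1I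
    · intro t ht
      rw [hPl _ _ t ht, hPl _ _ t ht]
      change K t (ex (tr ζ m), ex (tr ω n)) = K t (ex ζ, ex ω)
      rw [ex_tr, ex_tr]
    · rw [hP0, hP0]; exact F.per_act m n ζ ω s
  refine ⟨
    { L := fun ζ ω s => P s (ζ, ω) 1
      a := F.a
      b := F.b
      cont := fun s => by
        have : (fun q : LH × LH => P s (q.1, q.2) 1) = fun q => G s (1, q) := by
          ext q; exact hP1 s q
        rw [this]
        exact (G s).continuous.comp (continuous_const.prodMk continuous_id)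
      lift := fun ζ ω s => hPl s (ζ, ω) 1 h1I
      inj := fun ζ ω s t h => by
        have := path_unique hp (hPc s (ζ, ω)).continuousOn (hPc t (ζ, ω)).continuousOn
          (fun r hr => by rw [hPl _ _ r hr, hPl _ _ r hr]) h1I h 0 h0I
        rw [hP0, hP0] at this
        exact F.inj _ _ this
      surj := fun ζ ω x hx => ?_
      per_a := fun ζ ω s => by
        have := hm 1 0 s ζ ω
        rw [tr_zero] at this
        have e : F.act 1 0 s = F.a s := by unfold Fam.act; simp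
        rw [e] at this
        exact this
      per_b := fun ζ ω s => by
        have := hm 0 1 s ζ ω
        rw [tr_zero] at this
        have e : F.act 0 1 s = F.b s := by unfold Fam.act; simp
        rw [e] at this
        exact this }, rfl, rfl, fun s ζ ω => ⟨P s (ζ, ω), (hPc _ _).continuousOn,
          hPl _ _, hP0 _ _, rfl⟩⟩
  -- surjectivity: lift the reversed path
  have hrev : Continuous fun t : unitInterval => K (unitInterval.symm t).1 (ex2 (ζ, ω)) := by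
    have h1 : Continuous fun t : unitInterval => ((unitInterval.symm t, (ζ, ω)) :
        unitInterval × (LH × LH)) := unitInterval.continuous_symm.prodMk continuous_const
    exact hHc.comp h1
  have hx' : (⟨_, hrev⟩ : C(unitInterval, W)) 0 = p x := by
    change K (unitInterval.symm 0).1 (ex2 (ζ, ω)) = p x
    rw [unitInterval.symm_zero, hx]; rfl
  let Γ := hp.liftPath (⟨_, hrev⟩ : C(unitInterval, W)) x hx'
  have hΓ : ∀ t, p (Γ t) = K (unitInterval.symm t).1 (ex2 (ζ, ω)) := fun t =>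
    congrFun (hp.liftPath_lifts _ x hx') t
  have hΓ0 : Γ 0 = x := hp.liftPath_zero _ x hx'
  obtain ⟨s, hs⟩ := F.surj ζ ω (Γ 1) (by
    rw [hΓ, unitInterval.symm_one]; rfl)
  refine ⟨s, ?_⟩
  have hrevc : Continuous fun t : ℝ => Γ (unitInterval.symm (Set.projIcc 0 1 zero_le_one t)) :=
    Γ.continuous.comp (unitInterval.continuous_symm.comp continuous_projIcc)
  have := path_unique hp (hPc s (ζ, ω)).continuousOn hrevc.continuousOn
    (fun r hr => by
      rw [hPl _ _ r hr, hΓ, unitInterval.symm_symm, Set.projIcc_of_mem _ hr]) h0I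
    (by
      rw [hP0, Set.projIcc_left]
      change F.L ζ ω s = Γ (unitInterval.symm 0)
      rw [unitInterval.symm_zero, hs]) 1 h1I
  rw [this, Set.projIcc_right]
  change Γ (unitInterval.symm 1) = x
  rw [unitInterval.symm_one, hΓ0]

/-- naturality of the transport: ends of lifted paths. -/
theorem Fam.Nat.transport {Z' S' : Type*} [TopologicalSpace Z'] {p' : Z' → W}
    (hp' : IsCoveringMap p') {g : Z → Z'} (hg : Continuous g) (hpg : ∀ x, p' (g x) = p x)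
    {φ : S → S'} {F : Fam p (K 0) S} {F' : Fam p' (K 0) S'} {F₁ : Fam p (K 1) S}
    {F₁' : Fam p' (K 1) S'} (h : F.Nat F' g φ)
    (h1 : ∀ s ζ ω, ∃ γ : ℝ → Z, ContinuousOn γ (Set.Icc 0 1) ∧
        (∀ t ∈ Set.Icc (0 : ℝ) 1, p (γ t) = K t (ex ζ, ex ω)) ∧
        γ 0 = F.L ζ ω s ∧ γ 1 = F₁.L ζ ω s)
    (h1' : ∀ s ζ ω, ∃ γ : ℝ → Z', ContinuousOn γ (Set.Icc 0 1) ∧
        (∀ t ∈ Set.Icc (0 : ℝ) 1, p' (γ t) = K t (ex ζ, ex ω)) ∧
        γ 0 = F'.L ζ ω s ∧ γ 1 = F₁'.L ζ ω s) : F₁.Nat F₁' g φ := by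
  intro ζ ω s
  obtain ⟨γ, a1, a2, a3, a4⟩ := h1 s ζ ω
  obtain ⟨γ', b1, b2, b3, b4⟩ := h1' (φ s) ζ ω
  have := path_unique hp' (hg.comp_continuousOn a1) b1
    (fun t ht => by
      change p' (g (γ t)) = _
      rw [hpg, a2 t ht, b2 t ht]) (t₀ := 0) ⟨le_rfl, zero_le_one⟩
    (by change g (γ 0) = γ' 0; rw [a3, b3, h]) 1 ⟨zero_le_one, le_rfl⟩
  change g (γ 1) = γ' 1 at this
  rwa [a4, b4] at this

end Transport

end Vale.Agent.P300.H366
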